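import Vale.Agent.P226.Bdl.B1
import Mathlib.Probability.Distributions.Gaussian.HasGaussianLaw.Basic
import Mathlib.Analysis.Matrix.Order

/-!
# P226: the propeller bound as a maximal inequality for Gaussian vectors
-/

open MeasureTheory ProbabilityTheory Set WithLp
open scoped RealInnerProductSpace MatrixOrder

set_option linter.unusedSectionVars false

namespace Vale.Agent.N226

open Vale.Agent.P226 Vale.Agent.P226.K3

/-- the constant -/
noncomputable def c2 : ℝ := 9 / (8 * Real.pi)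

lemma c2_pos : 0 < c2 := by unfold c2; positivity

lemma c2_le_one : c2 ≤ 1 := by
  unfold c2
  rw [div_le_one (by positivity)]
  nlinarith [Real.pi_gt_three]

variable {ι : Type} [Fintype ι] [Nonempty ι]

/-- the cells on which a given function is the first maximal one -/
lemma exists_cells {Ω : Type*} [MeasurableSpace Ω] (Y : ι → Ω → ℝ) (hY : ∀ i, Measurable (Y i)) :
    ∃ A : ι → Set Ω, (∀ i, MeasurableSet (A i)) ∧ (Pairwise fun i j => Disjoint (A i) (A j)) ∧
      ⋃ i, A i = univ ∧ (∀ i, ∀ x ∈ A i, ⨆ j, Y j x = Y i x) ∧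
      ∀ x x', (∀ j, Y j x = Y j x') → ∀ i, (x ∈ A i ↔ x' ∈ A i) := by
  classical
  let e : ι → ℕ := fun i => (Fintype.equivFin ι i : ℕ)
  have he : Function.Injective e := fun i j h => (Fintype.equivFin ι).injective (Fin.ext h)
  refine ⟨fun i => {x | (∀ j, Y j x ≤ Y i x) ∧ ∀ j, e j < e i → Y j x < Y i x}, fun i => ?_,
    fun i j hij => ?_, ?_, fun i x hx => ?_, fun x x' h i => ?_⟩
  · have h1 : MeasurableSet {x | ∀ j, Y j x ≤ Y i x} := by
      rw [ofPred_forall]
      exact MeasurableSet.iInter fun j => measurableSet_le (hY j) (hY i)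
    have h2 : MeasurableSet {x | ∀ j, e j < e i → Y j x < Y i x} := by
      rw [ofPred_forall]
      refine MeasurableSet.iInter fun j => ?_
      by_cases h : e j < e i
      · simpa only [h, forall_true_left] using measurableSet_lt (hY j) (hY i)
      · simp only [h, IsEmpty.forall_iff, ofPred_true, MeasurableSet.univ]
    exact h1.inter h2
  · refine Set.disjoint_left.2 ?_
    rintro x ⟨h1, h2⟩ ⟨h3, h4⟩
    rcases lt_or_gt_of_ne (he.ne hij) with h | h
    · exact absurd (h4 i h) (not_lt.2 (h1 j))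
    · exact absurd (h2 j h) (not_lt.2 (h3 i))
  · refine eq_univ_of_forall fun x => ?_
    obtain ⟨i0, hi0⟩ := Finite.exists_max fun j => Y j x
    obtain ⟨i, hi, hmin⟩ := Finset.exists_min_image
      (Finset.univ.filter fun i => ∀ j, Y j x ≤ Y i x) e ⟨i0, by simpa using hi0⟩
    have hi' : ∀ j, Y j x ≤ Y i x := by simpa using hi
    refine mem_iUnion.2 ⟨i, hi', fun j hj => lt_of_le_of_ne (hi' j) fun h => ?_⟩
    have := hmin j (by simpa only [Finset.mem_filter, Finset.mem_univ, true_and, h] using hi')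
    omega
  · exact le_antisymm (ciSup_le hx.1) (le_ciSup (f := fun j => Y j x) (Finite.bddAbove_range _) i)
  · simp only [mem_ofPred_eq, h]

lemma integral_iSup_eq {Ω : Type*} [MeasurableSpace Ω] {P : Measure Ω} {Y : ι → Ω → ℝ}
    (hY : ∀ i, Integrable (Y i) P) {A : ι → Set Ω} (h1 : ∀ i, MeasurableSet (A i))
    (h2 : Pairwise fun i j => Disjoint (A i) (A j)) (h3 : ⋃ i, A i = univ)
    (h4 : ∀ i, ∀ x ∈ A i, ⨆ j, Y j x = Y i x) :
    ∫ x, ⨆ j, Y j x ∂P = ∑ i, ∫ x in A i, Y i x ∂P := by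
  have e1 : ∀ i, ∫ x in A i, Y i x ∂P = ∫ x in A i, ⨆ j, Y j x ∂P := fun i =>
    setIntegral_congr_fun (h1 i) fun x hx => (h4 i x hx).symm
  simp only [e1]
  rw [← integral_iUnion_fintype h1 h2, h3, setIntegral_univ]
  intro i
  exact (hY i).integrableOn.congr_fun (fun x hx => (h4 i x hx).symm) (h1 i)

lemma abs_iSup_le (y : ι → ℝ) : |⨆ j, y j| ≤ ∑ j, |y j| := by
  obtain ⟨i, hi⟩ := Finite.exists_max y
  rw [le_antisymm (ciSup_le hi) (le_ciSup (Finite.bddAbove_range _) i)]
  exact Finset.single_le_sum (f := fun j => |y j|) (fun j _ => abs_nonneg _) (Finset.mem_univ i)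

lemma continuous_iSup' : Continuous fun y : ι → ℝ => ⨆ j, y j := by
  have : (fun y : ι → ℝ => ⨆ j, y j) = fun y => Finset.univ.sup' Finset.univ_nonempty y := by
    funext y
    rw [Finset.sup'_univ_eq_ciSup]
  rw [this]
  exact Continuous.finset_sup'_apply _ fun i _ => continuous_apply i

lemma integrable_iSup {Ω : Type*} [MeasurableSpace Ω] {P : Measure Ω} {Y : ι → Ω → ℝ}
    (hY : ∀ i, Integrable (Y i) P) : Integrable (fun x => ⨆ j, Y j x) P := by
  refine (integrable_finsetSum Finset.univ fun j _ => (hY j).abs).mono' ?_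
    (ae_of_all _ fun x => abs_iSup_le _)
  exact (continuous_iSup'.measurable.comp_aemeasurable
    (aemeasurable_pi_lambda _ fun j => (hY j).aemeasurable)).aestronglyMeasurable

variable {E : Type*} [NormedAddCommGroup E] [InnerProductSpace ℝ E] [FiniteDimensional ℝ E]
  [MeasurableSpace E] [BorelSpace E]

/-- the maximal inequality for linear forms -/
theorem gmax (z : ι → E) :
    ∫ x, ⨆ i, ⟪z i, x⟫ ∂(stdGaussian E) ≤ √(c2 * ∑ i, ‖z i‖ ^ 2) := by
  obtain ⟨A, h1, h2, h3, h4, -⟩ := exists_cells (fun i (x : E) => ⟪z i, x⟫) (by fun_prop)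
  rw [integral_iSup_eq (fun i => IsGaussian.integrable_fun_id.const_inner (z i)) h1 h2 h3 h4]
  have hb := (bdd_of_isEmpty_bad (E := E) inferInstance _).of_card rfl A ⟨h1, h2, h3⟩
  simp only [← inner_fm]
  calc ∑ i, ⟪z i, fm (A i)⟫ ≤ ∑ i, ‖fm (A i)‖ * ‖z i‖ :=
        Finset.sum_le_sum fun i _ => (real_inner_le_norm _ _).trans_eq (mul_comm _ _)
    _ ≤ √(∑ i, ‖fm (A i)‖ ^ 2) * √(∑ i, ‖z i‖ ^ 2) := Real.sum_mul_le_sqrt_mul_sqrt _ _ _
    _ ≤ √c2 * √(∑ i, ‖z i‖ ^ 2) := by
        gcongr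
        exact hb
    _ = _ := (Real.sqrt_mul c2_pos.le _).symm

variable {J : Type} [Fintype J]

/-- the product of standard normal laws -/
noncomputable abbrev Q (J : Type) [Fintype J] : Measure (J → ℝ) :=
  Measure.pi fun _ => gaussianReal 0 1

lemma inner_toLp (a x : J → ℝ) :
    ⟪(toLp 2 a : EuclideanSpace ℝ J), toLp 2 x⟫ = ∑ j, x j * a j := by
  simp [PiLp.inner_apply]

lemma integral_Q (z : ι → J → ℝ) : ∫ x, ⨆ i, ∑ j, x j * z i j ∂(Q J) =
    ∫ x, ⨆ i, ⟪(toLp 2 (z i) : EuclideanSpace ℝ J), x⟫ ∂(stdGaussian (EuclideanSpace ℝ J)) := by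
  rw [← map_pi_eq_stdGaussian, integral_map (by fun_prop)]
  · simp only [inner_toLp]
  · exact (continuous_iSup'.comp (continuous_pi fun i => by fun_prop)).aestronglyMeasurable

theorem gmax_pi (z : ι → J → ℝ) :
    ∫ x, ⨆ i, ∑ j, x j * z i j ∂(Q J) ≤ √(c2 * ∑ i, ∑ j, z i j ^ 2) := by
  rw [integral_Q]
  refine (gmax _).trans_eq ?_
  simp only [EuclideanSpace.real_norm_sq_eq]

/-- the maximal inequality for centred jointly Gaussian variables -/
theorem gmax_law {Ω : Type*} [MeasurableSpace Ω] {P : Measure Ω} {X : ι → Ω → ℝ}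
    (hX : HasGaussianLaw (fun ω i => X i ω) P) (h0 : ∀ i, ∫ ω, X i ω ∂P = 0) :
    ∫ ω, ⨆ i, X i ω ∂P ≤ √(c2 * ∑ i, Var[X i; P]) := by
  classical
  have := hX.isProbabilityMeasure
  have hL : ∀ i, MemLp (X i) 2 P := fun i => (hX.eval i).memLp_two
  have hm : ∀ i, AEMeasurable (X i) P := fun i => (hL i).aemeasurable
  have hG := hX.toLp_pi 2
  have := hG.isGaussian_map
  let S : Matrix ι ι ℝ := Matrix.of fun i j => cov[X i, X j; P]
  have hS' : ∀ x y : EuclideanSpace ℝ ι,
      covarianceBilin (P.map fun ω => toLp 2 (X · ω)) x y = x ⬝ᵥ S.mulVec y := by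
    intro x y
    rw [covarianceBilin_apply_pi hL]
    simp only [dotProduct, Matrix.mulVec, S, Matrix.of_apply, Finset.mul_sum]
    refine Finset.sum_congr rfl fun i _ => Finset.sum_congr rfl fun j _ => by ring
  have hS : S.PosSemidef := by
    refine Matrix.PosSemidef.of_dotProduct_mulVec_nonneg ?_ fun x => ?_
    · ext i j
      simp [S, covariance_comm]
    · have := hS' (toLp 2 x) (toLp 2 x)
      simp only [star_trivial]
      rw [← this]
      exact covarianceBilin_self_nonneg _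
  have hlaw : (P.map fun ω => toLp 2 (X · ω)) = multivariateGaussian 0 S := by
    refine IsGaussian.ext ?_ ?_
    · rw [integral_id_multivariateGaussian', integral_map (by fun_prop) (by fun_prop)]
      ext i
      rw [eval_integral_piLp]
      · simpa using h0 i
      · exact fun i => (hL i).integrable one_le_two
    · ext x y
      rw [hS', covarianceBilin_multivariateGaussian hS]
  have hc : Continuous fun y : EuclideanSpace ℝ ι => ⨆ i, y i :=
    continuous_iSup'.comp (continuous_pi fun i => by fun_prop)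
  have e1 : ∫ ω, ⨆ i, X i ω ∂P = ∫ y, ⨆ i, y i ∂(multivariateGaussian 0 S) := by
    rw [← hlaw, integral_map (by fun_prop) hc.aestronglyMeasurable]
  rw [e1, multivariateGaussian, integral_map (by fun_prop) hc.aestronglyMeasurable]
  set R := CFC.sqrt S with hR
  have e2 : ∀ (x : EuclideanSpace ℝ ι) i, (0 + Matrix.toEuclideanCLM (𝕜 := ℝ) R x) i =
      ⟪(toLp 2 (R i) : EuclideanSpace ℝ ι), x⟫ := by
    intro x i
    simp [PiLp.inner_apply, Matrix.mulVec, dotProduct, mul_comm]
  simp only [e2]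
  refine (gmax _).trans_eq ?_
  congr 2
  refine Finset.sum_congr rfl fun i _ => ?_
  have h1 : R * R = S := CFC.sqrt_mul_sqrt_self S hS.nonneg
  have h2 : R.IsHermitian := (Matrix.nonneg_iff_posSemidef.1 (CFC.sqrt_nonneg S)).isHermitian
  rw [← covariance_self (hm i)]
  change _ = S i i
  rw [← h1, EuclideanSpace.real_norm_sq_eq, Matrix.mul_apply]
  refine Finset.sum_congr rfl fun j _ => ?_
  have := h2.apply j i
  simp only [star_trivial] at this
  rw [sq, ← this]

end Vale.Agent.N226
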