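import Vale.Agent.N226.G
import Mathlib.Probability.Independence.Integration
import Mathlib.Analysis.Calculus.MeanValue

/-!
# P226: replacement of independent variables in the maximum of linear forms
-/

open MeasureTheory ProbabilityTheory Set

set_option linter.unusedSectionVars false

namespace Vale.Agent.N226

variable {ι : Type} [Fintype ι] [Nonempty ι]

/-- the smooth maximum -/
noncomputable def lse (β : ℝ) (y : ι → ℝ) : ℝ := Real.log (∑ i, Real.exp (β * y i)) / β

lemma sum_exp_pos (y : ι → ℝ) : 0 < ∑ i, Real.exp (y i) :=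
  Finset.sum_pos (fun _ _ => Real.exp_pos _) Finset.univ_nonempty

lemma le_lse {β : ℝ} (hβ : 0 < β) (y : ι → ℝ) : ⨆ i, y i ≤ lse β y := by
  refine ciSup_le fun i => ?_
  rw [lse, le_div_iff₀ hβ, Real.le_log_iff_exp_le (sum_exp_pos _), mul_comm]
  exact Finset.single_le_sum (f := fun i => Real.exp (β * y i)) (fun _ _ => (Real.exp_pos _).le)
    (Finset.mem_univ i)

lemma lse_le {β : ℝ} (hβ : 0 < β) (y : ι → ℝ) :
    lse β y ≤ (⨆ i, y i) + Real.log (Fintype.card ι) / β := by
  have hc : (0 : ℝ) < Fintype.card ι := by exact_mod_cast Fintype.card_pos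
  rw [lse, div_le_iff₀ hβ, add_mul, div_mul_cancel₀ _ hβ.ne',
    Real.log_le_iff_le_exp (sum_exp_pos _), Real.exp_add, Real.exp_log hc]
  calc _ ≤ ∑ _i : ι, Real.exp ((⨆ i, y i) * β) := by
        refine Finset.sum_le_sum fun i _ => Real.exp_le_exp.2 ?_
        rw [mul_comm]
        exact mul_le_mul_of_nonneg_right (le_ciSup (Finite.bddAbove_range _) i) hβ.le
    _ = _ := by simp [mul_comm]

lemma continuous_lse (β : ℝ) : Continuous (lse (ι := ι) β) := by
  unfold lse
  exact (Continuous.log (by fun_prop) fun y => (sum_exp_pos _).ne').div_const _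

lemma abs_lse_le {β : ℝ} (hβ : 0 < β) (y : ι → ℝ) :
    |lse β y| ≤ Real.log (Fintype.card ι) / β + ‖y‖ := by
  have h0 : 0 ≤ Real.log (Fintype.card ι) / β :=
    div_nonneg (Real.log_nonneg (by exact_mod_cast Fintype.card_pos)) hβ.le
  have h1 : ⨆ i, y i ≤ ‖y‖ := ciSup_le fun i => (le_abs_self _).trans (norm_le_pi_norm y i)
  obtain ⟨i⟩ := ‹Nonempty ι›
  have h2 : -‖y‖ ≤ ⨆ i, y i :=
    (neg_le_of_abs_le (norm_le_pi_norm y i)).trans (le_ciSup (Finite.bddAbove_range _) i)
  have := le_lse hβ y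
  have := lse_le hβ y
  rw [abs_le]
  constructor <;> linarith

/-- one integration of a bound by a power -/
lemma integ_step {g g' : ℝ → ℝ} (hg : ∀ t, HasDerivAt g (g' t) t) (h0 : g 0 = 0) {M : ℝ}
    (hM : 0 ≤ M) {n : ℕ} (h : ∀ t, |g' t| ≤ M * |t| ^ n) (t : ℝ) : |g t| ≤ M * |t| ^ (n + 1) := by
  have h1 := (convex_Icc (-|t|) |t|).norm_image_sub_le_of_norm_hasDerivWithin_le
    (f := g) (f' := g') (C := M * |t| ^ n) (x := 0) (y := t)
    (fun s _ => (hg s).hasDerivWithinAt)
    (fun s hs => (h s).trans (by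
      have : |s| ≤ |t| := abs_le.2 hs
      gcongr))
    ⟨by simp, abs_nonneg t⟩ ⟨neg_abs_le t, le_abs_self t⟩
  rw [h0, sub_zero, sub_zero, Real.norm_eq_abs, Real.norm_eq_abs] at h1
  rw [pow_succ, ← mul_assoc]
  exact h1

/-- the weighted power sums -/
noncomputable def NN (β : ℝ) (b v : ι → ℝ) (k : ℕ) (t : ℝ) : ℝ :=
  ∑ i, v i ^ k * Real.exp (β * (b i + t * v i))

lemma hasDerivAt_NN (β : ℝ) (b v : ι → ℝ) (k : ℕ) (t : ℝ) :
    HasDerivAt (NN β b v k) (β * NN β b v (k + 1) t) t := by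
  unfold NN
  rw [Finset.mul_sum]
  refine HasDerivAt.fun_sum fun i _ => ?_
  have h1 : HasDerivAt (fun t => β * (b i + t * v i)) (β * v i) t := by
    simpa using (((hasDerivAt_id t).mul_const (v i)).const_add (b i)).const_mul β
  exact (h1.exp.const_mul (v i ^ k)).congr_deriv (by ring)

lemma NN_pos (β : ℝ) (b v : ι → ℝ) (t : ℝ) : 0 < NN β b v 0 t := by
  simpa only [NN, pow_zero, one_mul] using sum_exp_pos fun i => β * (b i + t * v i)

lemma abs_NN_div {β : ℝ} {b v : ι → ℝ} {m : ℝ} (hm : ∀ i, |v i| ≤ m) (k : ℕ) (t : ℝ) :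
    |NN β b v k t / NN β b v 0 t| ≤ m ^ k := by
  rw [abs_div, abs_of_pos (NN_pos β b v t), div_le_iff₀ (NN_pos β b v t), NN, NN, Finset.mul_sum]
  refine (Finset.abs_sum_le_sum_abs _ _).trans (Finset.sum_le_sum fun i _ => ?_)
  rw [abs_mul, abs_pow, abs_of_pos (Real.exp_pos _), pow_zero, one_mul]
  gcongr
  exact hm i

lemma taylor {β : ℝ} (hβ : 0 < β) (b v : ι → ℝ) {m : ℝ} (hm : ∀ i, |v i| ≤ m) :
    ∃ D1 D2 : ℝ, ∀ t : ℝ,
      |lse β (b + t • v) - lse β b - D1 * t - D2 * t ^ 2| ≤ 6 * β ^ 2 * m ^ 3 * |t| ^ 3 := by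
  have hm0 : 0 ≤ m := (abs_nonneg _).trans (hm (Classical.arbitrary ι))
  let r : ℕ → ℝ → ℝ := fun k t => NN β b v k t / NN β b v 0 t
  have hr : ∀ k t, HasDerivAt (r k) (β * (r (k + 1) t - r k t * r 1 t)) t := by
    intro k t
    have h0 := (NN_pos β b v t).ne'
    refine ((hasDerivAt_NN β b v k t).fun_div (hasDerivAt_NN β b v 0 t) h0).congr_deriv ?_
    simp only [r]
    field_simp
  have hb : ∀ k t, |r k t| ≤ m ^ k := fun k t => abs_NN_div hm k t
  let φ : ℝ → ℝ := fun t => Real.log (NN β b v 0 t) / β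
  have hφ : ∀ t, φ t = lse β (b + t • v) := fun t => by simp [φ, NN, lse]
  have d0 : ∀ t, HasDerivAt φ (r 1 t) t := by
    intro t
    have h0 := (NN_pos β b v t).ne'
    refine (((hasDerivAt_NN β b v 0 t).log h0).div_const β).congr_deriv ?_
    simp only [r]
    field_simp
  let φ2 : ℝ → ℝ := fun t => β * (r 2 t - r 1 t * r 1 t)
  let φ3 : ℝ → ℝ := fun t => β ^ 2 * (r 3 t - 3 * (r 2 t * r 1 t) + 2 * (r 1 t * r 1 t * r 1 t))
  have d2 : ∀ t, HasDerivAt φ2 (φ3 t) t := by
    intro t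
    refine (((hr 2 t).fun_sub ((hr 1 t).fun_mul (hr 1 t))).const_mul β).congr_deriv ?_
    simp only [φ3]
    ring
  have b3 : ∀ t, |φ3 t| ≤ 6 * β ^ 2 * m ^ 3 * |t| ^ 0 := by
    intro t
    have e1 := hb 1 t
    have e2 := hb 2 t
    have e3 := hb 3 t
    have e4 : |r 2 t * r 1 t| ≤ m ^ 2 * m ^ 1 := by rw [abs_mul]; gcongr
    have e5 : |r 1 t * r 1 t * r 1 t| ≤ m ^ 1 * m ^ 1 * m ^ 1 := by
      rw [abs_mul, abs_mul]; gcongr
    simp only [φ3]
    rw [abs_mul, abs_of_pos (by positivity : 0 < β ^ 2)]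
    have e6 : |r 3 t - 3 * (r 2 t * r 1 t) + 2 * (r 1 t * r 1 t * r 1 t)| ≤ 6 * m ^ 3 := by
      rw [abs_le] at e3 e4 e5 ⊢
      constructor <;> nlinarith [e3.1, e3.2, e4.1, e4.2, e5.1, e5.2]
    calc _ ≤ β ^ 2 * (6 * m ^ 3) := by gcongr
      _ = _ := by ring
  have hM : 0 ≤ 6 * β ^ 2 * m ^ 3 := by positivity
  have s1 := integ_step (g := fun t => φ2 t - φ2 0) (fun t => (d2 t).sub_const _) (by simp) hM b3
  have s2 := integ_step (g := fun t => r 1 t - r 1 0 - φ2 0 * t) (g' := fun t => φ2 t - φ2 0)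
    (fun t => (((hr 1 t).sub_const (r 1 0)).fun_sub
      ((hasDerivAt_id' t).const_mul (φ2 0))).congr_deriv (by simp only [φ2, mul_one]))
    (by simp) hM s1
  have s3 := integ_step (g := fun t => φ t - φ 0 - r 1 0 * t - φ2 0 / 2 * t ^ 2)
    (g' := fun t => r 1 t - r 1 0 - φ2 0 * t)
    (fun t => by
      refine ((((d0 t).sub_const (φ 0)).fun_sub ((hasDerivAt_id' t).const_mul (r 1 0))).fun_sub
        ((hasDerivAt_pow 2 t).const_mul (φ2 0 / 2))).congr_deriv ?_
      simp only [mul_one, Nat.cast_ofNat, Nat.add_one_sub_one, pow_one]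
      ring)
    (by simp) hM s2
  refine ⟨r 1 0, φ2 0 / 2, fun t => ?_⟩
  have := s3 t
  rwa [hφ, hφ, zero_smul, add_zero] at this

/-- centred, variance one, fourth moment at most `B` -/
structure Good {Ω : Type*} [MeasurableSpace Ω] (P : Measure Ω) (X : Ω → ℝ) (B : ℝ) : Prop where
  mem : MemLp X 4 P
  m1 : ∫ ω, X ω ∂P = 0
  m2 : ∫ ω, X ω ^ 2 ∂P = 1
  m4 : ∫ ω, X ω ^ 4 ∂P ≤ B

section
variable {Ω : Type*} [MeasurableSpace Ω] {P : Measure Ω} [IsProbabilityMeasure P] {X : Ω → ℝ}
  {B : ℝ}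

lemma int_pow (h : MemLp X 4 P) {k : ℕ} (hk : k ≤ 4) : Integrable (fun ω => X ω ^ k) P := by
  have h1 : Integrable (fun ω => ‖X ω‖ ^ k) P :=
    (h.mono_exponent (by exact_mod_cast hk)).integrable_norm_pow'
  refine h1.mono' (h.1.pow k) (ae_of_all _ fun ω => ?_)
  rw [norm_pow]

lemma Good.int1 (h : Good P X B) : Integrable X P := by simpa using int_pow h.mem (k := 1) (by norm_num)

lemma Good.one_le (h : Good P X B) : 1 ≤ B := by
  have h1 : ∫ ω, X ω ^ 2 ∂P ≤ ∫ ω, (1 + X ω ^ 4) / 2 ∂P :=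
    integral_mono (int_pow h.mem (by norm_num))
      (((integrable_const _).add (int_pow h.mem le_rfl)).div_const _)
      fun ω => by nlinarith [sq_nonneg (X ω ^ 2 - 1)]
  rw [integral_div, integral_add (integrable_const _) (int_pow h.mem le_rfl), h.m2] at h1
  have := h.m4
  simp at h1
  linarith

lemma Good.one_step (h : Good P X B) {φ : ℝ → ℝ} (hφ : Continuous φ) {a D1 D2 M : ℝ} (hM : 0 ≤ M)
    (hT : ∀ t, |φ t - a - D1 * t - D2 * t ^ 2| ≤ M * |t| ^ 3) :
    |∫ ω, φ (X ω) ∂P - (a + D2)| ≤ M * B := by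
  have i2 := int_pow h.mem (k := 2) (by norm_num)
  have i4 := int_pow h.mem le_rfl
  have hb : ∀ ω, ‖φ (X ω) - a - D1 * X ω - D2 * X ω ^ 2‖ ≤ M * ((X ω ^ 2 + X ω ^ 4) / 2) := by
    intro ω
    refine (hT _).trans (mul_le_mul_of_nonneg_left ?_ hM)
    rw [← sq_abs (X ω), ← (show Even 4 by decide).pow_abs (X ω)]
    nlinarith [mul_nonneg (sq_nonneg |X ω|) (sq_nonneg (|X ω| - 1))]
  have ib : Integrable (fun ω => M * ((X ω ^ 2 + X ω ^ 4) / 2)) P :=
    ((i2.add i4).div_const _).const_mul _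
  have hm := h.mem.1
  have iR : Integrable (fun ω => φ (X ω) - a - D1 * X ω - D2 * X ω ^ 2) P := by
    refine ib.mono' ?_ (ae_of_all _ hb)
    exact (((hφ.comp_aestronglyMeasurable hm).sub aestronglyMeasurable_const).sub
      (hm.const_mul _)).sub ((hm.pow 2).const_mul _)
  have e1 : ∫ ω, φ (X ω) ∂P = ∫ ω, (φ (X ω) - a - D1 * X ω - D2 * X ω ^ 2) +
      (a + D1 * X ω + D2 * X ω ^ 2) ∂P := by
    congr 1
    funext ω
    ring
  have j1 : Integrable (fun ω => a + D1 * X ω) P := (integrable_const _).add (h.int1.const_mul _)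
  have j2 : Integrable (fun ω => a + D1 * X ω + D2 * X ω ^ 2) P := j1.add (i2.const_mul _)
  rw [e1, integral_add iR j2, integral_add j1 (i2.const_mul _),
    integral_add (integrable_const _) (h.int1.const_mul _), integral_const_mul, integral_const_mul,
    h.m1, h.m2]
  have e2 := norm_integral_le_of_norm_le ib (ae_of_all _ hb)
  rw [integral_const_mul, integral_div, integral_add i2 i4, h.m2] at e2
  simp only [integral_const, probReal_univ, smul_eq_mul, one_mul, mul_zero, add_zero, mul_one,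
    add_sub_cancel_right]
  refine e2.trans (mul_le_mul_of_nonneg_left ?_ hM)
  have := h.one_le
  have := h.m4
  linarith

end

section Conv

variable {W : Type} [NormedAddCommGroup W] [MeasurableSpace W] [BorelSpace W]
  [SecondCountableTopology W]

/-- two laws give close averages to all translates of `Φ` -/
def Close (Φ : W → ℝ) (c : ℝ) (α α' : Measure W) : Prop :=
  ∀ b, |∫ y, Φ (b + y) ∂α - ∫ y, Φ (b + y) ∂α'| ≤ c

variable {Φ : W → ℝ} (hΦ : Continuous Φ) {K : ℝ} (hK : ∀ y, |Φ y| ≤ K + ‖y‖)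
include hΦ hK

lemma int_prod {α γ : Measure W} [IsProbabilityMeasure α] [IsProbabilityMeasure γ]
    (hα : Integrable id α) (hγ : Integrable id γ) (b : W) :
    Integrable (fun p : W × W => Φ (b + (p.1 + p.2))) (α.prod γ) := by
  have h1 : Integrable (fun p : W × W => K + ‖b‖ + (‖p.1‖ + ‖p.2‖)) (α.prod γ) :=
    (integrable_const _).add ((hα.norm.comp_fst γ).add (hγ.norm.comp_snd α))
  refine h1.mono' (by fun_prop) (ae_of_all _ fun p => (hK _).trans ?_)
  have := norm_add_le b (p.1 + p.2)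
  have := norm_add_le p.1 p.2
  linarith

lemma Close.conv {α α' γ γ' : Measure W} [IsProbabilityMeasure α] [IsProbabilityMeasure α']
    [IsProbabilityMeasure γ] [IsProbabilityMeasure γ'] (hα : Integrable id α)
    (hα' : Integrable id α') (hγ : Integrable id γ) (hγ' : Integrable id γ') {c d : ℝ}
    (h1 : Close Φ c α α') (h2 : Close Φ d γ γ') (b : W) :
    |∫ p, Φ (b + (p.1 + p.2)) ∂(α.prod γ) - ∫ p, Φ (b + (p.1 + p.2)) ∂(α'.prod γ')| ≤ c + d := by
  have i1 := int_prod hΦ hK hα hγ b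
  have i2 := int_prod hΦ hK hα hγ' b
  have i3 := int_prod hΦ hK hα' hγ' b
  have e1 : |∫ p, Φ (b + (p.1 + p.2)) ∂(α.prod γ) - ∫ p, Φ (b + (p.1 + p.2)) ∂(α.prod γ')| ≤ d := by
    rw [integral_prod _ i1, integral_prod _ i2,
      ← integral_sub i1.integral_prod_left i2.integral_prod_left]
    have := norm_integral_le_of_norm_le_const (μ := α) (C := d)
      (f := fun x => ∫ y, Φ (b + (x + y)) ∂γ - ∫ y, Φ (b + (x + y)) ∂γ')
      (ae_of_all _ fun x => by simpa only [add_assoc, Real.norm_eq_abs] using h2 (b + x))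
    simpa using this
  have e2 : |∫ p, Φ (b + (p.1 + p.2)) ∂(α.prod γ') - ∫ p, Φ (b + (p.1 + p.2)) ∂(α'.prod γ')| ≤ c := by
    rw [integral_prod_symm _ i2, integral_prod_symm _ i3,
      ← integral_sub i2.integral_prod_right i3.integral_prod_right]
    have := norm_integral_le_of_norm_le_const (μ := γ') (C := c)
      (f := fun y => ∫ x, Φ (b + (x + y)) ∂α - ∫ x, Φ (b + (x + y)) ∂α')
      (ae_of_all _ fun y => by
        simpa only [add_assoc, add_comm y, Real.norm_eq_abs] using h1 (b + y))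
    simpa using this
  have := abs_sub_le (∫ p, Φ (b + (p.1 + p.2)) ∂(α.prod γ))
    (∫ p, Φ (b + (p.1 + p.2)) ∂(α.prod γ')) (∫ p, Φ (b + (p.1 + p.2)) ∂(α'.prod γ'))
  linarith

omit hK in
lemma integral_indep {Ω : Type*} [MeasurableSpace Ω] {P : Measure Ω} [IsProbabilityMeasure P]
    {U V : Ω → W} (hU : Integrable U P) (hV : Integrable V P) (h : IndepFun U V P) (b : W) :
    ∫ y, Φ (b + y) ∂(P.map (U + V)) = ∫ p, Φ (b + (p.1 + p.2)) ∂((P.map U).prod (P.map V)) := by
  rw [← h.map_prod_eq_prod_map_map hU.aemeasurable hV.aemeasurable,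
    integral_map (hU.aemeasurable.prodMk hV.aemeasurable) (by fun_prop),
    integral_map (hU.aemeasurable.add hV.aemeasurable) (by fun_prop)]
  rfl

lemma close_sum {J Ω Ω' : Type*} [MeasurableSpace Ω] {P : Measure Ω} [IsProbabilityMeasure P]
    [MeasurableSpace Ω'] {P' : Measure Ω'} [IsProbabilityMeasure P'] {U : J → Ω → W}
    {V : J → Ω' → W} (hU : iIndepFun U P) (hV : iIndepFun V P') (iU : ∀ j, Integrable (U j) P)
    (iV : ∀ j, Integrable (V j) P') {c : J → ℝ}
    (h : ∀ j, Close Φ (c j) (P.map (U j)) (P'.map (V j))) (s : Finset J) :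
    Close Φ (∑ j ∈ s, c j) (P.map (∑ j ∈ s, U j)) (P'.map (∑ j ∈ s, V j)) := by
  classical
  induction s using Finset.induction_on with
  | empty =>
    intro b
    simp [Pi.zero_def]
  | insert j s hj ih =>
    intro b
    have i1 : Integrable (∑ j ∈ s, U j) P := integrable_finsetSum' _ fun j _ => iU j
    have i2 : Integrable (∑ j ∈ s, V j) P' := integrable_finsetSum' _ fun j _ => iV j
    rw [Finset.sum_insert hj, Finset.sum_insert hj, Finset.sum_insert hj,
      integral_indep hΦ (iU j) i1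
        (hU.indepFun_finsetSum_of_notMem₀ (fun j => (iU j).aemeasurable) hj).symm,
      integral_indep hΦ (iV j) i2
        (hV.indepFun_finsetSum_of_notMem₀ (fun j => (iV j).aemeasurable) hj).symm]
    have p1 := Measure.isProbabilityMeasure_map (μ := P) (iU j).aemeasurable
    have p2 := Measure.isProbabilityMeasure_map (μ := P') (iV j).aemeasurable
    have p3 := Measure.isProbabilityMeasure_map (μ := P) i1.aemeasurable
    have p4 := Measure.isProbabilityMeasure_map (μ := P') i2.aemeasurable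
    refine Close.conv hΦ hK ?_ ?_ ?_ ?_ (h j) ih b
    · exact (integrable_map_measure (by fun_prop) (iU j).aemeasurable).2 (iU j)
    · exact (integrable_map_measure (by fun_prop) (iV j).aemeasurable).2 (iV j)
    · exact (integrable_map_measure (by fun_prop) i1.aemeasurable).2 i1
    · exact (integrable_map_measure (by fun_prop) i2.aemeasurable).2 i2

end Conv

/-- **Replacement**: the expected maximum of linear forms with small coefficients is nearly the
same for all independent normalised variables. -/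
theorem replace {J Ω Ω' : Type*} [Fintype J] [MeasurableSpace Ω] {P : Measure Ω}
    [IsProbabilityMeasure P] [MeasurableSpace Ω'] {P' : Measure Ω'} [IsProbabilityMeasure P']
    {X : J → Ω → ℝ} {Y : J → Ω' → ℝ} (hX : iIndepFun X P) (hY : iIndepFun Y P') {B B' : ℝ}
    (gX : ∀ j, Good P (X j) B) (gY : ∀ j, Good P' (Y j) B') (hB : 0 ≤ B + B') (z : ι → J → ℝ)
    {τ : ℝ} (hτ : 0 ≤ τ) (hz : ∀ i j, |z i j| ≤ τ) {β : ℝ} (hβ : 0 < β) :
    ∫ ω, ⨆ i, ∑ j, X j ω * z i j ∂P ≤ ∫ ω, ⨆ i, ∑ j, Y j ω * z i j ∂P' +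
      (6 * β ^ 2 * (B + B') * τ * ∑ i, ∑ j, z i j ^ 2 + Real.log (Fintype.card ι) / β) := by
  let v : J → ι → ℝ := fun j i => z i j
  have iU : ∀ j, Integrable (fun ω => X j ω • v j) P := fun j => (gX j).int1.smul_const _
  have iV : ∀ j, Integrable (fun ω => Y j ω • v j) P' := fun j => (gY j).int1.smul_const _
  have hc := close_sum (continuous_lse β) (abs_lse_le hβ) (U := fun j ω => X j ω • v j)
    (V := fun j ω => Y j ω • v j) (hX.comp (fun j t => t • v j) (by fun_prop))
    (hY.comp (fun j t => t • v j) (by fun_prop)) iU iV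
    (c := fun j => 6 * β ^ 2 * (B + B') * τ * ∑ i, z i j ^ 2) (fun j b => by
      obtain ⟨i0, hi0⟩ := Finite.exists_max fun i => |z i j|
      obtain ⟨D1, D2, hT⟩ := taylor hβ b (v j) hi0
      have hl := continuous_lse (ι := ι) β
      have h1 := (gX j).one_step (φ := fun t => lse β (b + t • v j)) (by fun_prop)
        (by positivity) hT
      have h2 := (gY j).one_step (φ := fun t => lse β (b + t • v j)) (by fun_prop)
        (by positivity) hT
      rw [integral_map (iU j).aemeasurable (by fun_prop),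
        integral_map (iV j).aemeasurable (by fun_prop)]
      have h3 : |z i0 j| ^ 3 ≤ τ * ∑ i, z i j ^ 2 := by
        rw [pow_succ', sq_abs]
        exact mul_le_mul (hz _ _) (Finset.single_le_sum (f := fun i => z i j ^ 2)
          (fun _ _ => sq_nonneg _) (Finset.mem_univ i0)) (sq_nonneg _) hτ
      have h4 : 6 * β ^ 2 * |z i0 j| ^ 3 * (B + B') ≤ 6 * β ^ 2 * (τ * ∑ i, z i j ^ 2) * (B + B') := by
        gcongr
      rw [abs_le] at h1 h2 ⊢
      constructor <;> nlinarith [h1.1, h1.2, h2.1, h2.2]) Finset.univ 0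
  have i1 : Integrable (∑ j, fun ω => X j ω • v j) P := integrable_finsetSum' _ fun j _ => iU j
  have i2 : Integrable (∑ j, fun ω => Y j ω • v j) P' := integrable_finsetSum' _ fun j _ => iV j
  have hl := continuous_lse (ι := ι) β
  rw [integral_map i1.aemeasurable (by fun_prop), integral_map i2.aemeasurable (by fun_prop),
    ← Finset.mul_sum, Finset.sum_comm] at hc
  have e1 : ∀ ω, (∑ j, fun ω => X j ω • v j) ω = fun i => ∑ j, X j ω * z i j := by
    intro ω
    funext i
    simp [v]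
  have e2 : ∀ ω, (∑ j, fun ω => Y j ω • v j) ω = fun i => ∑ j, Y j ω * z i j := by
    intro ω
    funext i
    simp [v]
  have l1 : Integrable (fun ω => lse β ((∑ j, fun ω => X j ω • v j) ω)) P :=
    ((integrable_const _).add i1.norm).mono' (hl.comp_aestronglyMeasurable i1.1)
      (ae_of_all _ fun ω => abs_lse_le hβ _)
  have l2 : Integrable (fun ω => lse β ((∑ j, fun ω => Y j ω • v j) ω)) P' :=
    ((integrable_const _).add i2.norm).mono' (hl.comp_aestronglyMeasurable i2.1)
      (ae_of_all _ fun ω => abs_lse_le hβ _)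
  have s1 : Integrable (fun ω => ⨆ i, ∑ j, X j ω * z i j) P :=
    integrable_iSup fun i => integrable_finsetSum _ fun j _ => (gX j).int1.mul_const _
  have s2 : Integrable (fun ω => ⨆ i, ∑ j, Y j ω * z i j) P' :=
    integrable_iSup fun i => integrable_finsetSum _ fun j _ => (gY j).int1.mul_const _
  simp only [zero_add, e1, e2] at hc l1 l2
  have k1 := integral_mono s1 l1 fun ω => le_lse hβ _
  have k2 := integral_mono l2 (s2.add (integrable_const _)) fun ω => lse_le hβ _
  rw [integral_add' s2 (integrable_const _)] at k2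
  simp only [integral_const, probReal_univ, smul_eq_mul, one_mul] at k2
  have := (abs_le.1 hc).2
  linarith

end Vale.Agent.N226
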