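import Vale.Agent.N226.U

/-!
# P226: the constant is attained in the limit for every law of the coordinates
-/

open MeasureTheory ProbabilityTheory Set WithLp Filter Topology
open scoped RealInnerProductSpace

set_option linter.unusedSectionVars false

namespace Vale.Agent.N226

open Vale.Agent.P226 Vale.Agent.P226.K3

section
variable {ι : Type} [Fintype ι] [Nonempty ι]
variable {E : Type*} [NormedAddCommGroup E] [InnerProductSpace ℝ E] [FiniteDimensional ℝ E]
  [MeasurableSpace E] [BorelSpace E]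
variable {E' : Type*} [NormedAddCommGroup E'] [InnerProductSpace ℝ E'] [FiniteDimensional ℝ E']
  [MeasurableSpace E'] [BorelSpace E']

lemma charFun_forms (z : ι → E) (t : EuclideanSpace ℝ ι) :
    charFun ((stdGaussian E).map fun x => (toLp 2 fun i => ⟪z i, x⟫ : EuclideanSpace ℝ ι)) t =
      Complex.exp (-((∑ i, ∑ j, t i * t j * ⟪z i, z j⟫ : ℝ) : ℂ) / 2) := by
  rw [charFun_apply, integral_map (Continuous.aemeasurable (by fun_prop)) (by fun_prop)]
  have h : ∀ x : E, ⟪(toLp 2 fun i => ⟪z i, x⟫ : EuclideanSpace ℝ ι), t⟫ = ⟪x, ∑ i, t i • z i⟫ := by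
    intro x
    simp [PiLp.inner_apply, inner_sum, inner_smul_right, real_inner_comm]
  simp_rw [h]
  rw [← charFun_apply, charFun_stdGaussian]
  congr 3
  rw [← Complex.ofReal_pow, ← real_inner_self_eq_norm_sq]
  simp only [sum_inner, inner_sum, inner_smul_left, inner_smul_right, conj_trivial, mul_assoc]
  congr 1
  refine Finset.sum_congr rfl fun i _ => ?_
  rw [Finset.mul_sum]
  refine Finset.sum_congr rfl fun j _ => ?_
  rw [real_inner_comm]

lemma gram {z : ι → E} {z' : ι → E'} (h : ∀ i j, ⟪z i, z j⟫ = ⟪z' i, z' j⟫) :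
    ∫ x, ⨆ i, ⟪z i, x⟫ ∂(stdGaussian E) = ∫ x, ⨆ i, ⟪z' i, x⟫ ∂(stdGaussian E') := by
  have m1 : AEMeasurable (fun x => (toLp 2 fun i => ⟪z i, x⟫ : EuclideanSpace ℝ ι))
    (stdGaussian E) := Continuous.aemeasurable (by fun_prop)
  have m2 : AEMeasurable (fun x => (toLp 2 fun i => ⟪z' i, x⟫ : EuclideanSpace ℝ ι))
    (stdGaussian E') := Continuous.aemeasurable (by fun_prop)
  have p1 := Measure.isProbabilityMeasure_map m1
  have p2 := Measure.isProbabilityMeasure_map m2
  have e : (stdGaussian E).map (fun x => (toLp 2 fun i => ⟪z i, x⟫ : EuclideanSpace ℝ ι)) =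
      (stdGaussian E').map fun x => (toLp 2 fun i => ⟪z' i, x⟫ : EuclideanSpace ℝ ι) := by
    refine Measure.ext_of_charFun ?_
    funext t
    simp only [charFun_forms, h]
  have hc : Continuous fun y : EuclideanSpace ℝ ι => ⨆ i, y i :=
    continuous_iSup'.comp (continuous_pi fun i => by fun_prop)
  have e1 := integral_map m1 hc.aestronglyMeasurable
  rw [e, integral_map m2 hc.aestronglyMeasurable] at e1
  exact e1.symm

end

lemma exists_tripod : ∃ u : Fin 3 → EuclideanSpace ℝ (Fin 2), ∑ i, ‖u i‖ ^ 2 = c2 ∧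
    c2 ≤ ∫ x, ⨆ i, ⟪u i, x⟫ ∂(stdGaussian (EuclideanSpace ℝ (Fin 2))) := by
  obtain ⟨A, h1, h2, h3, h4⟩ := exists_eq_of_bdd (E := EuclideanSpace ℝ (Fin 2)) (k := 3)
    (by simp) le_rfl (bdd_of_isEmpty_bad inferInstance _)
  refine ⟨fun i => fm (A i), h4, ?_⟩
  have i0 : ∀ i, Integrable (fun x => ⟪fm (A i), x⟫) (stdGaussian (EuclideanSpace ℝ (Fin 2))) :=
    fun i => IsGaussian.integrable_fun_id.const_inner _
  have i1 := integrable_iSup i0
  rw [← setIntegral_univ, ← h3,
    integral_iUnion_fintype h1 (fun i j hij => h2 i j hij) fun i => i1.integrableOn]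
  refine h4.symm.trans_le (Finset.sum_le_sum fun i _ => ?_)
  change ‖fm (A i)‖ ^ 2 ≤ _
  rw [← real_inner_self_eq_norm_sq, inner_fm]
  exact setIntegral_mono (i0 i).integrableOn i1.integrableOn fun x =>
    le_ciSup (f := fun j => ⟪fm (A j), x⟫) (Finite.bddAbove_range _) i

lemma sum_class {J : Type} [Fintype J] {κ : J → Fin 2} {m : ℕ}
    (hκ : ∀ a, (Finset.univ.filter fun j => κ j = a).card = m) (g : Fin 2 → ℝ) :
    ∑ j, g (κ j) = m * ∑ a, g a := by
  rw [← Finset.sum_fiberwise Finset.univ κ, Finset.mul_sum]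
  refine Finset.sum_congr rfl fun a _ => ?_
  rw [Finset.sum_congr rfl fun j hj => by rw [(Finset.mem_filter.1 hj).2], Finset.sum_const, hκ,
    nsmul_eq_mul]

theorem sharp_aux {μ : Measure ℝ} [IsProbabilityMeasure μ] {B : ℝ} (hμ : Good μ id B) {J : Type}
    [Fintype J] {κ : J → Fin 2} {m : ℕ} (hm : 0 < m)
    (hκ : ∀ a, (Finset.univ.filter fun j => κ j = a).card = m) {β : ℝ} (hβ : 0 < β) :
    ∃ A : Fin 3 → Set (J → ℝ), (∀ i, MeasurableSet (A i)) ∧
      (Pairwise fun i j => Disjoint (A i) (A j)) ∧ ⋃ i, A i = univ ∧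
      (∀ i j, |∫ x in A i, x j ∂(Measure.pi fun _ => μ)| ≤ (√m)⁻¹) ∧
      c2 - 2 * (6 * β ^ 2 * (B0 + B) * (√m)⁻¹ + Real.log 3 / β) ≤
        ∑ i, ∑ j, (∫ x in A i, x j ∂(Measure.pi fun _ => μ)) ^ 2 := by
  classical
  obtain ⟨u, hu1, hu2⟩ := exists_tripod
  have hm' : (0 : ℝ) < m := by exact_mod_cast hm
  have hs : 0 < √(m : ℝ) := Real.sqrt_pos.2 hm'
  have hss : (m : ℝ) * ((√m)⁻¹ * (√m)⁻¹) = 1 := by
    rw [← mul_inv, Real.mul_self_sqrt hm'.le, mul_inv_cancel₀ hm'.ne']
  let w : Fin 3 → J → ℝ := fun i j => u i (κ j) * (√m)⁻¹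
  have hw : ∀ i i', ∑ j, w i j * w i' j = ⟪u i', u i⟫ := by
    intro i i'
    rw [sum_class hκ fun a => u i a * (√m)⁻¹ * (u i' a * (√m)⁻¹), PiLp.inner_apply,
      Finset.mul_sum]
    refine Finset.sum_congr rfl fun a _ => ?_
    simp only [RCLike.inner_apply, conj_trivial]
    linear_combination (u i a * u i' a) * hss
  have hw2 : ∑ i, ∑ j, w i j ^ 2 = c2 := by
    simp only [sq, hw, real_inner_self_eq_norm_mul_norm]
    simpa only [sq] using hu1
  have hwb : ∀ i j, |w i j| ≤ (√m)⁻¹ := by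
    intro i j
    have h1 : ‖u i‖ ^ 2 ≤ 1 := ((Finset.single_le_sum (f := fun i => ‖u i‖ ^ 2)
      (fun _ _ => sq_nonneg _) (Finset.mem_univ i)).trans hu1.le).trans c2_le_one
    have h2 : |u i (κ j)| ≤ 1 := (PiLp.norm_apply_le (u i) (κ j)).trans
      (by nlinarith [norm_nonneg (u i)])
    simp only [w]
    rw [abs_mul, abs_of_pos (inv_pos.2 hs)]
    exact mul_le_of_le_one_left (by positivity) h2
  have hB := hμ.one_le
  have hB0 := good_gauss.one_le
  have gX : ∀ j : J, Good (Measure.pi fun _ : J => μ) (fun x => x j) B := fun j => hμ.eval j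
  have r := replace (indep_eval (gaussianReal 0 1) J) (indep_eval μ J)
    (fun j => good_gauss.eval j) gX (by linarith) w (by positivity) hwb hβ
  rw [integral_Q, gram (z' := u) (fun i i' => by rw [inner_toLp, hw]), hw2] at r
  obtain ⟨A, h1, h2, h3, h4, h5⟩ :=
    exists_cells (fun i (x : J → ℝ) => ∑ j, x j * w i j) (by fun_prop)
  rw [integral_iSup_eq (fun i => integrable_finsetSum _ fun j _ => (gX j).int1.mul_const _)
    h1 h2 h3 h4] at r
  have e1 : ∀ i, ∫ x in A i, ∑ j, x j * w i j ∂(Measure.pi fun _ => μ) =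
      ∑ j, (∫ x in A i, x j ∂(Measure.pi fun _ => μ)) * w i j := by
    intro i
    rw [integral_finsetSum _ fun j _ => ((gX j).int1.mul_const _).integrableOn]
    simp only [integral_mul_const]
  refine ⟨A, h1, h2, h3, fun i j => ?_, ?_⟩
  · have sym : ∀ j', κ j' = κ j → ∫ x in A i, x j' ∂(Measure.pi fun _ => μ) =
        ∫ x in A i, x j ∂(Measure.pi fun _ => μ) := by
      intro j' hj
      have mp := measurePreserving_arrowCongr' (fun _ : J => μ) (fun _ : J => μ)
        (Equiv.swap j j') (MeasurableEquiv.refl ℝ) fun _ => MeasurePreserving.id μ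
      have ap : ∀ (x : J → ℝ) l, MeasurableEquiv.arrowCongr' (Equiv.swap j j')
        (MeasurableEquiv.refl ℝ) x l = x (Equiv.swap j j' l) := fun x l => rfl
      have := mp.setIntegral_preimage_emb (MeasurableEquiv.measurableEmbedding _)
        (fun x => x j) (A i)
      rw [← this]
      simp only [ap, Equiv.swap_apply_left]
      congr 2
      ext x
      refine h5 _ _ (fun l => ?_) i
      simp only [ap]
      rw [← Equiv.sum_comp (Equiv.swap j j') fun a => x a * w l a]
      refine Finset.sum_congr rfl fun a _ => ?_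
      have : κ (Equiv.swap j j' a) = κ a := by
        rw [Equiv.swap_apply_def]
        split_ifs with e1 e2
        · rw [hj, e1]
        · rw [← hj, e2]
        · rfl
      simp only [w, this]
    have h01 : ∀ᵐ x ∂(Measure.pi fun _ : J => μ),
        0 ≤ (A i).indicator (1 : (J → ℝ) → ℝ) x ∧ (A i).indicator (1 : (J → ℝ) → ℝ) x ≤ 1 :=
      ae_of_all _ fun x => by by_cases h : x ∈ A i <;> simp [h]
    have b := bessel (indep_eval μ J) gX hB
      (measurable_one.indicator (h1 i)).aemeasurable h01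
    have e2 : ∀ l, ∫ x, (A i).indicator (1 : (J → ℝ) → ℝ) x * x l ∂(Measure.pi fun _ => μ) =
        ∫ x in A i, x l ∂(Measure.pi fun _ => μ) := by
      intro l
      rw [← integral_indicator (h1 i)]
      congr 1
      funext x
      by_cases h : x ∈ A i <;> simp [h]
    simp only [e2] at b
    rw [integral_indicator_one (h1 i)] at b
    have b1 := ((Finset.sum_le_univ_sum_of_nonneg
      (s := Finset.univ.filter fun l => κ l = κ j) fun l => sq_nonneg _).trans b).trans
      measureReal_le_one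
    rw [Finset.sum_congr rfl fun l hl => by rw [sym l (Finset.mem_filter.1 hl).2],
      Finset.sum_const, hκ, nsmul_eq_mul] at b1
    refine abs_le_of_sq_le_sq ?_ (by positivity)
    refine le_of_mul_le_mul_left ?_ hm'
    rw [sq (√m)⁻¹, hss]
    exact b1
  · simp only [e1] at r
    have e2 : ∑ i, ∑ j, (∫ x in A i, x j ∂(Measure.pi fun _ => μ)) * w i j ≤
        (∑ i, ∑ j, (∫ x in A i, x j ∂(Measure.pi fun _ => μ)) ^ 2 + ∑ i, ∑ j, w i j ^ 2) / 2 := by
      rw [← Finset.sum_add_distrib, Finset.sum_div]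
      refine Finset.sum_le_sum fun i _ => ?_
      rw [← Finset.sum_add_distrib, Finset.sum_div]
      exact Finset.sum_le_sum fun j _ => by
        nlinarith [sq_nonneg ((∫ x in A i, x j ∂(Measure.pi fun _ => μ)) - w i j)]
    rw [hw2] at e2
    have e3 : 6 * β ^ 2 * (B0 + B) * (√m)⁻¹ * c2 ≤ 6 * β ^ 2 * (B0 + B) * (√m)⁻¹ :=
      mul_le_of_le_one_right (by positivity) c2_le_one
    simp only [Fintype.card_fin, Nat.cast_ofNat] at r
    linarith

theorem sharp {μ : Measure ℝ} [IsProbabilityMeasure μ] {B : ℝ} (hμ : Good μ id B) {ε : ℝ}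
    (hε : 0 < ε) : ∃ (n : ℕ) (A : Fin 3 → Set (Fin n → ℝ)), (∀ i, MeasurableSet (A i)) ∧
      (Pairwise fun i j => Disjoint (A i) (A j)) ∧ ⋃ i, A i = univ ∧
      (∀ i j, |∫ x in A i, x j ∂(Measure.pi fun _ => μ)| ≤ ε) ∧
      c2 - ε ≤ ∑ i, ∑ j, (∫ x in A i, x j ∂(Measure.pi fun _ => μ)) ^ 2 := by
  have hl : 0 < Real.log 3 := Real.log_pos (by norm_num)
  set β := 4 * Real.log 3 / ε with hβ
  have hβ0 : 0 < β := by positivity
  have t0 : Tendsto (fun m : ℕ => (√(m : ℝ))⁻¹) atTop (𝓝 0) :=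
    tendsto_inv_atTop_zero.comp (Real.tendsto_sqrt_atTop.comp tendsto_natCast_atTop_atTop)
  have t1 := t0.const_mul (6 * β ^ 2 * (B0 + B))
  rw [mul_zero] at t1
  obtain ⟨m, h1, h2, h3⟩ := ((t0.eventually (gt_mem_nhds hε)).and
    ((t1.eventually (gt_mem_nhds (by positivity : 0 < ε / 4))).and (eventually_gt_atTop 0))).exists
  obtain ⟨A, a1, a2, a3, a4, a5⟩ := sharp_aux hμ (J := Fin (2 * m))
    (κ := fun j => (finProdFinEquiv.symm j).1) h3 (fun a => by
      rw [← Finset.card_map finProdFinEquiv.symm.toEmbedding]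
      have : (Finset.univ.filter fun j : Fin (2 * m) => (finProdFinEquiv.symm j).1 = a).map
          finProdFinEquiv.symm.toEmbedding = {a} ×ˢ Finset.univ := by
        ext p
        simp only [Finset.mem_map_equiv, Equiv.symm_symm, Finset.mem_filter, Finset.mem_univ,
          true_and, Equiv.symm_apply_apply, Finset.mem_product, Finset.mem_singleton, and_true]
      rw [this]
      simp) hβ0
  refine ⟨2 * m, A, a1, a2, a3, fun i j => (a4 i j).trans h1.le, le_trans ?_ a5⟩
  have : Real.log 3 / β = ε / 4 := by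
    rw [hβ]
    field_simp
  linarith

end Vale.Agent.N226
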