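import Vale.Agent.N226.L

/-!
# P226: the propeller bound for independent variables with small first moments
-/

open MeasureTheory ProbabilityTheory Set

set_option linter.unusedSectionVars false

namespace Vale.Agent.N226

section
variable {Ω : Type*} [MeasurableSpace Ω] {P : Measure Ω} [IsProbabilityMeasure P] {J : Type}
  {X : J → Ω → ℝ} {B : ℝ}

lemma indep_pow {S W : Ω → ℝ} (h : IndepFun S W P) (hS : MemLp S 4 P) (hW : MemLp W 4 P) {p q : ℕ}
    (hp : p ≤ 4) (hq : q ≤ 4) : Integrable (fun ω => S ω ^ p * W ω ^ q) P ∧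
      ∫ ω, S ω ^ p * W ω ^ q ∂P = (∫ ω, S ω ^ p ∂P) * ∫ ω, W ω ^ q ∂P := by
  have h1 : IndepFun (fun ω => S ω ^ p) (fun ω => W ω ^ q) P :=
    h.comp (measurable_id.pow_const p) (measurable_id.pow_const q)
  exact ⟨h1.integrable_mul (int_pow hS hp) (int_pow hW hq),
    h1.integral_fun_mul_eq_mul_integral (int_pow hS hp).1 (int_pow hW hq).1⟩

lemma moments (hX : iIndepFun X P) (gX : ∀ j, Good P (X j) B) (hB : 1 ≤ B) (a : J → ℝ)
    (s : Finset J) : MemLp (fun ω => ∑ j ∈ s, X j ω * a j) 4 P ∧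
      ∫ ω, ∑ j ∈ s, X j ω * a j ∂P = 0 ∧
      ∫ ω, (∑ j ∈ s, X j ω * a j) ^ 2 ∂P = ∑ j ∈ s, a j ^ 2 ∧
      ∫ ω, (∑ j ∈ s, X j ω * a j) ^ 4 ∂P ≤ 3 * B * (∑ j ∈ s, a j ^ 2) ^ 2 := by
  classical
  have hm : ∀ s : Finset J, MemLp (fun ω => ∑ j ∈ s, X j ω * a j) 4 P := fun s =>
    memLp_finsetSum _ fun j _ => (gX j).mem.mul_const _
  refine ⟨hm s, ?_⟩
  induction s using Finset.induction_on with
  | empty => simp
  | insert j s hj ih =>
    obtain ⟨h1, h2, h4⟩ := ih
    set S : Ω → ℝ := fun ω => ∑ j ∈ s, X j ω * a j with hS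
    have hi : IndepFun S (X j) P := by
      have e := (hX.comp (fun i t => if i = j then t else t * a i) (fun i => by
        split_ifs <;> fun_prop)).indepFun_finsetSum_of_notMem₀ (fun i =>
          (show Measurable fun t : ℝ => if i = j then t else t * a i by
            split_ifs <;> fun_prop).comp_aemeasurable (gX i).mem.aemeasurable) hj
      convert e using 1
      · funext ω
        rw [Finset.sum_apply]
        refine Finset.sum_congr rfl fun i hi => ?_
        have : i ≠ j := fun h => hj (h ▸ hi)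
        simp [this]
      · funext ω
        simp
    have g := gX j
    have p := fun p q hp hq => indep_pow (p := p) (q := q) hi (hm s) g.mem hp hq
    have g1 : ∫ ω, X j ω ^ 1 ∂P = 0 := by simpa using g.m1
    have s1 : ∫ ω, S ω ^ 1 ∂P = 0 := by simpa using h1
    have g0 : ∫ ω, X j ω ^ 0 ∂P = 1 := by simp
    have s0 : ∫ ω, S ω ^ 0 ∂P = 1 := by simp
    simp only [Finset.sum_insert hj]
    refine ⟨?_, ?_, ?_⟩
    · rw [integral_add (g.int1.mul_const _) ((hm s).integrable (by norm_num)), integral_mul_const,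
        g.m1, h1]
      simp
    · have e : ∀ ω, (X j ω * a j + S ω) ^ 2 = S ω ^ 2 * X j ω ^ 0 +
          (2 * a j * (S ω ^ 1 * X j ω ^ 1) + a j ^ 2 * (S ω ^ 0 * X j ω ^ 2)) := fun ω => by ring
      change ∫ ω, (X j ω * a j + S ω) ^ 2 ∂P = _
      simp only [e]
      have i1 := (p 1 1 (by norm_num) (by norm_num)).1.const_mul (2 * a j)
      have i2 := (p 0 2 (by norm_num) (by norm_num)).1.const_mul (a j ^ 2)
      have i3 : Integrable (fun ω => 2 * a j * (S ω ^ 1 * X j ω ^ 1) +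
        a j ^ 2 * (S ω ^ 0 * X j ω ^ 2)) P := i1.add i2
      rw [integral_add (p 2 0 (by norm_num) (by norm_num)).1 i3, integral_add i1 i2,
        integral_const_mul, integral_const_mul, (p 2 0 (by norm_num) (by norm_num)).2,
        (p 1 1 (by norm_num) (by norm_num)).2, (p 0 2 (by norm_num) (by norm_num)).2, g0, g1, s0,
        g.m2, h2]
      ring
    · have e : ∀ ω, (X j ω * a j + S ω) ^ 4 = S ω ^ 4 * X j ω ^ 0 +
          (4 * a j * (S ω ^ 3 * X j ω ^ 1) + (6 * a j ^ 2 * (S ω ^ 2 * X j ω ^ 2) +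
          (4 * a j ^ 3 * (S ω ^ 1 * X j ω ^ 3) + a j ^ 4 * (S ω ^ 0 * X j ω ^ 4)))) :=
        fun ω => by ring
      change ∫ ω, (X j ω * a j + S ω) ^ 4 ∂P ≤ _
      simp only [e]
      have i1 := (p 3 1 (by norm_num) (by norm_num)).1.const_mul (4 * a j)
      have i2 := (p 2 2 (by norm_num) (by norm_num)).1.const_mul (6 * a j ^ 2)
      have i3 := (p 1 3 (by norm_num) (by norm_num)).1.const_mul (4 * a j ^ 3)
      have i4 := (p 0 4 (by norm_num) (by norm_num)).1.const_mul (a j ^ 4)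
      have k3 : Integrable (fun ω => 4 * a j ^ 3 * (S ω ^ 1 * X j ω ^ 3) +
        a j ^ 4 * (S ω ^ 0 * X j ω ^ 4)) P := i3.add i4
      have k2 : Integrable (fun ω => 6 * a j ^ 2 * (S ω ^ 2 * X j ω ^ 2) +
        (4 * a j ^ 3 * (S ω ^ 1 * X j ω ^ 3) + a j ^ 4 * (S ω ^ 0 * X j ω ^ 4))) P := i2.add k3
      have k1 : Integrable (fun ω => 4 * a j * (S ω ^ 3 * X j ω ^ 1) +
        (6 * a j ^ 2 * (S ω ^ 2 * X j ω ^ 2) +
        (4 * a j ^ 3 * (S ω ^ 1 * X j ω ^ 3) + a j ^ 4 * (S ω ^ 0 * X j ω ^ 4)))) P := i1.add k2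
      rw [integral_add (p 4 0 (by norm_num) (by norm_num)).1 k1, integral_add i1 k2,
        integral_add i2 k3, integral_add i3 i4,
        integral_const_mul, integral_const_mul, integral_const_mul, integral_const_mul,
        (p 4 0 (by norm_num) (by norm_num)).2,
        (p 3 1 (by norm_num) (by norm_num)).2, (p 2 2 (by norm_num) (by norm_num)).2,
        (p 1 3 (by norm_num) (by norm_num)).2, (p 0 4 (by norm_num) (by norm_num)).2, g0, g1, s0,
        s1, g.m2, h2]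
      have k4 := mul_le_mul_of_nonneg_left g.m4 (by positivity : 0 ≤ a j ^ 4)
      have k5 : 0 ≤ ∑ j ∈ s, a j ^ 2 := by positivity
      have k6 : 0 ≤ (B - 1) * (a j ^ 2 * ∑ j ∈ s, a j ^ 2) := by
        have := sub_nonneg.2 hB
        positivity
      have k7 : 0 ≤ B * a j ^ 4 := by positivity
      nlinarith

variable [Fintype J]

lemma int_mul {f g : Ω → ℝ} (hf : AEMeasurable f P) (h01 : ∀ᵐ ω ∂P, 0 ≤ f ω ∧ f ω ≤ 1)
    (hg : Integrable g P) : Integrable (fun ω => f ω * g ω) P :=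
  hg.bdd_mul (c := 1) hf.aestronglyMeasurable (h01.mono fun ω h => by
    rw [Real.norm_eq_abs, abs_of_nonneg h.1]; exact h.2)

lemma integral_lin (gX : ∀ j, Good P (X j) B) {f : Ω → ℝ} (hf : AEMeasurable f P)
    (h01 : ∀ᵐ ω ∂P, 0 ≤ f ω ∧ f ω ≤ 1) (a : J → ℝ) :
    ∫ ω, f ω * ∑ j, X j ω * a j ∂P = ∑ j, (∫ ω, f ω * X j ω ∂P) * a j := by
  simp only [Finset.mul_sum, ← mul_assoc]
  rw [integral_finsetSum _ fun j _ => (int_mul hf h01 (gX j).int1).mul_const _]
  simp only [integral_mul_const]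

lemma bessel (hX : iIndepFun X P) (gX : ∀ j, Good P (X j) B) (hB : 1 ≤ B) {f : Ω → ℝ}
    (hf : AEMeasurable f P) (h01 : ∀ᵐ ω ∂P, 0 ≤ f ω ∧ f ω ≤ 1) :
    ∑ j, (∫ ω, f ω * X j ω ∂P) ^ 2 ≤ ∫ ω, f ω ∂P := by
  obtain ⟨m, -, m2, -⟩ := moments hX gX hB (fun j => ∫ ω, f ω * X j ω ∂P) Finset.univ
  have e := integral_lin gX hf h01 fun j => ∫ ω, f ω * X j ω ∂P
  have i1 : Integrable f P := by simpa using int_mul hf h01 (integrable_const 1)
  have i2 := int_pow m (k := 2) (by norm_num)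
  have h := integral_mono_ae (int_mul hf h01 (m.integrable (by norm_num)))
    ((i1.add i2).div_const 2) (h01.mono fun ω h => by
      simp only [Pi.add_apply]
      nlinarith [sq_nonneg (f ω - ∑ j, X j ω * ∫ ω, f ω * X j ω ∂P), mul_nonneg h.1 (sub_nonneg.2 h.2)])
  rw [e, integral_div, integral_add' i1 i2, m2] at h
  simp only [← sq] at h
  linarith

end

lemma Good.eval {μ : Measure ℝ} [IsProbabilityMeasure μ] {B : ℝ} (h : Good μ id B) {J : Type}
    [Fintype J] (j : J) : Good (Measure.pi fun _ : J => μ) (fun x => x j) B := by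
  have mp := measurePreserving_eval (fun _ : J => μ) j
  have e : ∀ k : ℕ, ∫ x, x j ^ k ∂(Measure.pi fun _ : J => μ) = ∫ t, t ^ k ∂μ := fun k =>
    integral_comp_eval (μ := fun _ : J => μ) (f := fun t : ℝ => t ^ k) (by fun_prop)
  refine ⟨h.mem.comp_measurePreserving mp, ?_, (e 2).trans h.m2, (e 4).trans_le h.m4⟩
  simpa using (e 1).trans (by simpa using h.m1)

lemma indep_eval (μ : Measure ℝ) [IsProbabilityMeasure μ] (J : Type) [Fintype J] :
    iIndepFun (fun (j : J) (x : J → ℝ) => x j) (Measure.pi fun _ : J => μ) :=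
  iIndepFun_pi (X := fun _ => id) fun _ => aemeasurable_id

/-- the fourth moment of the standard normal law -/
noncomputable def B0 : ℝ := ∫ t, t ^ 4 ∂(gaussianReal 0 1)

lemma good_gauss : Good (gaussianReal 0 1) id B0 := by
  refine ⟨memLp_id_gaussianReal' _ (by norm_num), by simp, ?_, le_rfl⟩
  have h := variance_id_gaussianReal (μ := 0) (v := 1)
  rw [variance_eq_integral aemeasurable_id] at h
  simpa using h

lemma quad {F δ : ℝ} (hF : 0 ≤ F) (h : F ≤ √(c2 * F) + δ) : F ≤ c2 + 2 * δ := by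
  have h1 : √(c2 * F) ≤ (c2 + F) / 2 := by
    rw [Real.sqrt_le_left (by linarith [c2_pos])]
    nlinarith [sq_nonneg (c2 - F)]
  linarith

theorem upper {Ω : Type*} [MeasurableSpace Ω] {P : Measure Ω} [IsProbabilityMeasure P]
    {I J : Type} [Fintype I] [Fintype J] {X : J → Ω → ℝ} {B : ℝ} (hX : iIndepFun X P)
    (gX : ∀ j, Good P (X j) B) (hB : 1 ≤ B) {f : I → Ω → ℝ} (hf : ∀ i, AEMeasurable (f i) P)
    (hs : ∀ᵐ ω ∂P, (∀ i, 0 ≤ f i ω) ∧ ∑ i, f i ω ≤ 1) {u : ℝ} (hu : 0 < u)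
    (hz : ∀ i j, |∫ ω, f i ω * X j ω ∂P| ≤ u ^ 8) :
    ∑ i, ∑ j, (∫ ω, f i ω * X j ω ∂P) ^ 2 ≤ c2 + (32 + 12 * B0) * B * u ^ 2 := by
  classical
  have hB0 := good_gauss.one_le
  set z : I → J → ℝ := fun i j => ∫ ω, f i ω * X j ω ∂P with hzd
  have h01 : ∀ i, ∀ᵐ ω ∂P, 0 ≤ f i ω ∧ f i ω ≤ 1 := fun i => hs.mono fun ω h =>
    ⟨h.1 i, (Finset.single_le_sum (fun i _ => h.1 i) (Finset.mem_univ i)).trans h.2⟩
  have i1 : ∀ i, Integrable (f i) P := fun i => by
    simpa using int_mul (hf i) (h01 i) (integrable_const 1)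
  have hf1 : ∑ i, ∫ ω, f i ω ∂P ≤ 1 := by
    rw [← integral_finsetSum _ fun i _ => i1 i]
    simpa using integral_mono_ae (integrable_finsetSum _ fun i _ => i1 i) (integrable_const 1)
      (hs.mono fun ω h => h.2)
  let n : I → ℝ := fun i => ∑ j, z i j ^ 2
  have n0 : ∀ i, 0 ≤ n i := fun i => by positivity
  have hn1 : ∑ i, n i ≤ 1 :=
    (Finset.sum_le_sum fun i _ => bessel hX gX hB (hf i) (h01 i)).trans hf1
  let Y : I → Ω → ℝ := fun i ω => ∑ j, X j ω * z i j
  have mY := fun i => moments hX gX hB (z i) Finset.univ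
  have iY : ∀ i, Integrable (fun ω => f i ω * Y i ω) P := fun i =>
    int_mul (hf i) (h01 i) ((mY i).1.integrable (by norm_num))
  have eY : ∀ i, n i = ∫ ω, f i ω * Y i ω ∂P := fun i => by
    rw [integral_lin gX (hf i) (h01 i)]
    simp only [n, sq, hzd]
  let L : Finset I := Finset.univ.filter fun i => u ^ 8 ≤ n i
  have hsm : ∑ i ∈ Lᶜ, n i ≤ u ^ 2 + 3 * B * u ^ 2 := by
    have h1 : ∀ i ∈ Lᶜ, n i ≤ u ^ 2 * ∫ ω, f i ω ∂P + 3 * B * u ^ 2 * n i := by
      intro i hi
      have hi' : n i ≤ u ^ 8 := by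
        simp only [L, Finset.mem_compl, Finset.mem_filter, Finset.mem_univ, true_and, not_le] at hi
        exact hi.le
      have i4 := int_pow (mY i).1 le_rfl
      have h2 := integral_mono_ae (iY i) (((i1 i).const_mul (u ^ 2)).add (i4.div_const (u ^ 6)))
        ((h01 i).mono fun ω h => by
          change f i ω * Y i ω ≤ u ^ 2 * f i ω + Y i ω ^ 4 / u ^ 6
          rcases le_total (Y i ω) (u ^ 2) with h3 | h3
          · have : 0 ≤ Y i ω ^ 4 / u ^ 6 := by positivity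
            nlinarith [mul_le_mul_of_nonneg_left h3 h.1]
          · have h4 : 0 ≤ Y i ω := le_trans (by positivity) h3
            have h5 : Y i ω ≤ Y i ω ^ 4 / u ^ 6 := by
              rw [le_div_iff₀ (by positivity)]
              calc Y i ω * u ^ 6 = Y i ω * (u ^ 2) ^ 3 := by ring
                _ ≤ Y i ω * Y i ω ^ 3 := by gcongr
                _ = _ := by ring
            nlinarith [mul_le_mul_of_nonneg_right h.2 h4, mul_nonneg (sq_nonneg u) h.1])
      rw [← eY, integral_add' ((i1 i).const_mul _) (i4.div_const _), integral_const_mul,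
        integral_div] at h2
      refine h2.trans (add_le_add le_rfl ?_)
      rw [div_le_iff₀ (by positivity)]
      refine (mY i).2.2.2.trans ?_
      change 3 * B * n i ^ 2 ≤ _
      calc 3 * B * n i ^ 2 = 3 * B * (n i * n i) := by ring
        _ ≤ 3 * B * (u ^ 8 * n i) := by have := n0 i; gcongr
        _ = _ := by ring
    refine (Finset.sum_le_sum h1).trans ?_
    rw [Finset.sum_add_distrib, ← Finset.mul_sum, ← Finset.mul_sum]
    have h2 : ∑ i ∈ Lᶜ, ∫ ω, f i ω ∂P ≤ 1 :=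
      (Finset.sum_le_univ_sum_of_nonneg fun i =>
        integral_nonneg_of_ae ((h01 i).mono fun ω h => h.1)).trans hf1
    have h3 : ∑ i ∈ Lᶜ, n i ≤ 1 := (Finset.sum_le_univ_sum_of_nonneg n0).trans hn1
    have h4 := mul_le_mul_of_nonneg_left h2 (sq_nonneg u)
    have h5 := mul_le_mul_of_nonneg_left h3 (by positivity : 0 ≤ 3 * B * u ^ 2)
    linarith
  have hL1 : ∑ i ∈ L, n i ≤ 1 := (Finset.sum_le_univ_sum_of_nonneg n0).trans hn1
  have hcard : (L.card : ℝ) * u ^ 8 ≤ 1 := by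
    refine le_trans ?_ hL1
    rw [← nsmul_eq_mul, ← Finset.sum_const]
    exact Finset.sum_le_sum fun i hi => (Finset.mem_filter.1 hi).2
  let w : Option L → J → ℝ := fun o j => o.elim 0 fun i => z i j
  have hw : ∑ o, ∑ j, w o j ^ 2 = ∑ i ∈ L, n i := by
    rw [Fintype.sum_option, ← Finset.sum_coe_sort L]
    simp [w, n]
  have hβ : 0 < (u ^ 3)⁻¹ := by positivity
  have r := replace (ι := Option L) hX (indep_eval (gaussianReal 0 1) J) gX
    (fun j => good_gauss.eval j) (by linarith) w (τ := u ^ 8) (by positivity)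
    (by
      rintro (_ | i) j
      · simp only [w, Option.elim, abs_zero]; positivity
      · exact hz i j) hβ
  have g := gmax_pi w
  rw [hw] at r g
  have hlog : Real.log (Fintype.card (Option L)) / (u ^ 3)⁻¹ ≤ 8 * u ^ 2 := by
    rw [div_inv_eq_mul, Fintype.card_option, Fintype.card_coe]
    have h1 : ((L.card + 1 : ℕ) : ℝ) ≤ (u⁻¹ + 1) ^ 8 := by
      have h2 : (L.card : ℝ) ≤ u⁻¹ ^ 8 := by
        rw [inv_pow, ← one_div, le_div_iff₀ (by positivity)]
        exact hcard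
      have h3 := pow_add_pow_le (inv_pos.2 hu).le zero_le_one (n := 8) (by norm_num)
      push_cast
      rw [one_pow] at h3
      linarith
    have h2 : Real.log ((L.card + 1 : ℕ) : ℝ) ≤ 8 * u⁻¹ := by
      refine (Real.log_le_log (by positivity) h1).trans ?_
      rw [Real.log_pow]
      have := Real.log_le_sub_one_of_pos (by positivity : 0 < u⁻¹ + 1)
      push_cast
      linarith
    calc _ ≤ 8 * u⁻¹ * u ^ 3 := by gcongr
      _ = _ := by field_simp
  have hrep : 6 * (u ^ 3)⁻¹ ^ 2 * (B + B0) * u ^ 8 * ∑ i ∈ L, n i ≤ 6 * (B + B0) * u ^ 2 := by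
    calc _ ≤ 6 * (u ^ 3)⁻¹ ^ 2 * (B + B0) * u ^ 8 * 1 := by gcongr
      _ = _ := by field_simp
  have hlow : ∑ i ∈ L, n i ≤ ∫ ω, ⨆ o, ∑ j, X j ω * w o j ∂P := by
    simp only [eY]
    rw [← integral_finsetSum _ fun i _ => iY i]
    refine integral_mono_ae (integrable_finsetSum _ fun i _ => iY i)
      (integrable_iSup fun i => integrable_finsetSum _ fun j _ => (gX j).int1.mul_const _)
      (hs.mono fun ω h => ?_)
    have b : ∀ o, ∑ j, X j ω * w o j ≤ ⨆ o, ∑ j, X j ω * w o j := fun o =>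
      le_ciSup (f := fun o => ∑ j, X j ω * w o j) (Finite.bddAbove_range _) o
    have b0 : 0 ≤ ⨆ o, ∑ j, X j ω * w o j := by simpa [w] using b none
    calc ∑ i ∈ L, f i ω * Y i ω ≤ ∑ i ∈ L, f i ω * ⨆ o, ∑ j, X j ω * w o j :=
          Finset.sum_le_sum fun i hi => mul_le_mul_of_nonneg_left (b (some ⟨i, hi⟩)) (h.1 i)
      _ ≤ 1 * ⨆ o, ∑ j, X j ω * w o j := by
          rw [← Finset.sum_mul]
          exact mul_le_mul_of_nonneg_right ((Finset.sum_le_univ_sum_of_nonneg h.1).trans h.2) b0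
      _ = _ := one_mul _
  have hq := quad (F := ∑ i ∈ L, n i) (δ := 6 * (B + B0) * u ^ 2 + 8 * u ^ 2)
    (Finset.sum_nonneg fun i _ => n0 i) (by linarith)
  change ∑ i, n i ≤ _
  rw [← Finset.sum_add_sum_compl L]
  have k1 : u ^ 2 ≤ B * u ^ 2 := le_mul_of_one_le_left (sq_nonneg u) hB
  have k2 : B0 * u ^ 2 ≤ B0 * (B * u ^ 2) := by gcongr
  nlinarith

end Vale.Agent.N226
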